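import Vale.Agent.P346.GFinal

/-!
# P346: `s_K(n) = n ^ Θ(√n)` for every field `K`

Every syntactically homogeneous five-layer circuit over a field `K` (of any characteristic)
computing `IMM_{n,n}` has at least `n ^ (c √n)` vertices, for an absolute constant `c > 0`.
-/

namespace Vale.Agent.Results.P346.TightAllFields

open Vale.Agent.P346

theorem result :
    ∃ c : ℝ, 0 < c ∧ ∀ (K : Type*) [Field K] (n : ℕ) [NeZero n]
      (C : Circ K (Fin n × Fin n × Fin n)),
      C.IsSyntHomogeneous → C.poly = IMM K n n →
      (n : ℝ) ^ (c * Real.sqrt n) ≤ C.size :=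
  main_theorem_all

end Vale.Agent.Results.P346.TightAllFields
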